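import Vale.Agent.P063.Fourier

/-! Averaging, restriction, the Bonami lemma and the Margulis-Russo formula. -/

set_option linter.unusedSectionVars false

namespace Vale.Agent.P063

open Finset

variable {ι : Type} [Fintype ι] [DecidableEq ι] {p : ℝ}

/-- average over the coordinates in `A` -/
noncomputable def avg (p : ℝ) (A : Finset ι) (F : (ι → Bool) → ℝ) (x : ι → Bool) : ℝ :=
  Ex p (fun y => F (A.piecewise y x))

lemma avg_expand (h0 : 0 < p) (h1 : p < 1) (A : Finset ι) (F : (ι → Bool) → ℝ) (x : ι → Bool) :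
    avg p A F x = ∑ S : Finset ι, (if Disjoint S A then co p F S else 0) * chi p S x := by
  unfold avg
  have : ∀ y, F (A.piecewise y x)
      = ∑ S : Finset ι, (co p F S * chi p (S \ A) x) * chi p (S ∩ A) y := by
    intro y
    rw [expand h0 h1 F]
    refine Finset.sum_congr rfl fun S _ => ?_
    rw [chi_piecewise]; ring
  rw [Ex_congr this, Ex_sum]
  refine Finset.sum_congr rfl fun S _ => ?_
  rw [Ex_mul_left, Ex_chi h0 h1]
  by_cases h : Disjoint S A
  · rw [if_pos h, if_pos (Finset.disjoint_iff_inter_eq_empty.mp h),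
      Finset.sdiff_eq_self_of_disjoint h]; ring
  · rw [if_neg h, if_neg (fun h' => h (Finset.disjoint_iff_inter_eq_empty.mpr h'))]; ring

lemma co_avg (h0 : 0 < p) (h1 : p < 1) (A : Finset ι) (F : (ι → Bool) → ℝ) (S : Finset ι) :
    co p (avg p A F) S = if Disjoint S A then co p F S else 0 := by
  have : avg p A F = fun x => ∑ S : Finset ι, (if Disjoint S A then co p F S else 0) * chi p S x :=
    funext (avg_expand h0 h1 A F)
  rw [this, co_sum h0 h1]

lemma Ex_avg (h0 : 0 < p) (h1 : p < 1) (A : Finset ι) (F : (ι → Bool) → ℝ) :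
    Ex p (avg p A F) = Ex p F := by
  rw [← co_empty, co_avg h0 h1, if_pos (Finset.disjoint_empty_left A), co_empty]

lemma Ex_coord (e : ι) (G : Bool → ℝ) :
    Ex p (fun y : ι → Bool => G (y e)) = p * G true + (1 - p) * G false := by
  have := Ex_prod (p := p) (fun (i : ι) (b : Bool) => if i = e then G b else 1)
  simp only [Finset.prod_ite_eq', Finset.mem_univ, if_true] at this
  rw [this, Finset.prod_eq_single e]
  · simp
  · intro i _ hi; simp [hi]
  · simp

lemma avg_single (e : ι) (F : (ι → Bool) → ℝ) (x : ι → Bool) :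
    avg p {e} F x
      = p * F (Function.update x e true) + (1 - p) * F (Function.update x e false) := by
  unfold avg
  simp_rw [Finset.piecewise_singleton]
  exact Ex_coord e (fun b => F (Function.update x e b))

lemma Ex_resample (h0 : 0 < p) (h1 : p < 1) (e : ι) (F : (ι → Bool) → ℝ) :
    Ex p F = Ex p (fun x => p * F (Function.update x e true)
      + (1 - p) * F (Function.update x e false)) := by
  rw [← Ex_avg h0 h1 {e} F]; exact Ex_congr (avg_single e F)

lemma chi_update {S : Finset ι} {e : ι} (he : e ∉ S) (x : ι → Bool) (b : Bool) :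
    chi p S (Function.update x e b) = chi p S x := by
  unfold chi
  refine Finset.prod_congr rfl fun i hi => ?_
  have hne : i ≠ e := fun h => he (h ▸ hi)
  rw [Function.update_of_ne hne]

lemma four_le_B (h0 : 0 < p) (h1 : p < 1) : 4 ≤ 2 / sg p := by
  have hs := sg_pos h0 h1
  have h2 := sg_sq h0 h1
  rw [le_div_iff₀ hs]
  nlinarith [sq_nonneg (2 * p - 1), sq_nonneg (2 * sg p - 1)]

lemma one_step (h0 : 0 < p) (h1 : p < 1) (a b : ℝ) :
    p * (a + ch p true * b) ^ 4 + (1 - p) * (a + ch p false * b) ^ 4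
      ≤ a ^ 4 + 8 * (a ^ 2 * b ^ 2) + (2 / sg p) ^ 2 * b ^ 4 := by
  have hs := sg_pos h0 h1
  have h2 := sg_sq h0 h1
  have m1 := ch_mean (p := p)
  have m2 := ch_sq h0 h1
  set s := ch p true with hs'
  set t := ch p false with ht'
  have hst : s * t = -1 := by
    simp only [hs', ht', ch, if_true, Bool.false_eq_true, if_false]
    rw [div_mul_div_comm, ← sq, h2]
    have h3 : (1 - p) ≠ 0 := by linarith
    have h5 : p ≠ 0 := h0.ne'
    field_simp
    ring
  have hd : s - t = 1 / sg p := by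
    simp only [hs', ht', ch, if_true, Bool.false_eq_true, if_false]; ring
  have hB : (2 / sg p) ^ 2 = 4 * (s + t) ^ 2 + 16 := by
    have : 2 / sg p = 2 * (s - t) := by rw [hd]; ring
    rw [this]; nlinarith
  have s2 : s ^ 2 = (s + t) * s + 1 := by nlinarith
  have t2 : t ^ 2 = (s + t) * t + 1 := by nlinarith
  set k := s + t with hk
  have m3 : p * s ^ 3 + (1 - p) * t ^ 3 = k := by
    have : p * s ^ 3 + (1 - p) * t ^ 3
        = k * (p * s ^ 2 + (1 - p) * t ^ 2) + (p * s + (1 - p) * t) := by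
      have e1 : s ^ 3 = k * s ^ 2 + s := by linear_combination s * s2
      have e2 : t ^ 3 = k * t ^ 2 + t := by linear_combination t * t2
      rw [e1, e2]; ring
    rw [this, m1, m2]; ring
  have m4 : p * s ^ 4 + (1 - p) * t ^ 4 = k ^ 2 + 1 := by
    have : p * s ^ 4 + (1 - p) * t ^ 4
        = k * (p * s ^ 3 + (1 - p) * t ^ 3) + (p * s ^ 2 + (1 - p) * t ^ 2) := by
      have e1 : s ^ 4 = k * s ^ 3 + s ^ 2 := by
        have : s ^ 4 = s ^ 2 * s ^ 2 := by ring
        rw [this]; nth_rewrite 1 [s2]; ring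
      have e2 : t ^ 4 = k * t ^ 3 + t ^ 2 := by
        have : t ^ 4 = t ^ 2 * t ^ 2 := by ring
        rw [this]; nth_rewrite 1 [t2]; ring
      rw [e1, e2]; ring
    rw [this, m3, m2]; ring
  have expand4 : p * (a + s * b) ^ 4 + (1 - p) * (a + t * b) ^ 4
      = a ^ 4 + 4 * a ^ 3 * b * (p * s + (1 - p) * t)
        + 6 * a ^ 2 * b ^ 2 * (p * s ^ 2 + (1 - p) * t ^ 2)
        + 4 * a * b ^ 3 * (p * s ^ 3 + (1 - p) * t ^ 3)
        + b ^ 4 * (p * s ^ 4 + (1 - p) * t ^ 4) := by ring
  rw [expand4, m1, m2, m3, m4, hB]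
  nlinarith [mul_nonneg (sq_nonneg b) (sq_nonneg (a - k * b)), sq_nonneg (b ^ 2),
    sq_nonneg (k * b ^ 2)]

/-- The Bonami lemma (2,4)-hypercontractivity on the biased cube. -/
lemma bonami_aux (h0 : 0 < p) (h1 : p < 1) (A : Finset ι) (c : Finset ι → ℝ) :
    Ex p (fun x => (∑ T ∈ A.powerset, c T * chi p T x) ^ 4)
      ≤ (∑ T ∈ A.powerset, (2 / sg p) ^ T.card * c T ^ 2) ^ 2 := by
  induction A using Finset.induction_on generalizing c with
  | empty => simp [chi_empty, Ex_const]; apply le_of_eq; ring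
  | insert e A he ih =>
    have hB := four_le_B h0 h1
    set B := 2 / sg p with hBdef
    set g0 : (ι → Bool) → ℝ := fun x => ∑ T ∈ A.powerset, c T * chi p T x with hg0
    set g1 : (ι → Bool) → ℝ := fun x => ∑ T ∈ A.powerset, c (insert e T) * chi p T x with hg1
    have hnot : ∀ T ∈ A.powerset, e ∉ T := fun T hT h => he (Finset.mem_powerset.mp hT h)
    have hsplit : ∀ x, ∑ T ∈ (insert e A).powerset, c T * chi p T x
        = g0 x + ch p (x e) * g1 x := by
      intro x
      rw [Finset.sum_powerset_insert he, hg1, Finset.mul_sum]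
      congr 1
      refine Finset.sum_congr rfl fun T hT => ?_
      unfold chi
      rw [Finset.prod_insert (hnot T hT)]; ring
    have u0 : ∀ x b, g0 (Function.update x e b) = g0 x := fun x b =>
      Finset.sum_congr rfl fun T hT => by rw [chi_update (hnot T hT)]
    have u1 : ∀ x b, g1 (Function.update x e b) = g1 x := fun x b =>
      Finset.sum_congr rfl fun T hT => by rw [chi_update (hnot T hT)]
    set α := ∑ T ∈ A.powerset, B ^ T.card * c T ^ 2 with hα
    set β := ∑ T ∈ A.powerset, B ^ T.card * c (insert e T) ^ 2 with hβ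
    have hα0 : 0 ≤ α := Finset.sum_nonneg fun T _ => by positivity
    have hβ0 : 0 ≤ β := Finset.sum_nonneg fun T _ => by positivity
    have i0 : Ex p (fun x => g0 x ^ 4) ≤ α ^ 2 := ih c
    have i1 : Ex p (fun x => g1 x ^ 4) ≤ β ^ 2 := ih (fun T => c (insert e T))
    have hr : ∑ T ∈ (insert e A).powerset, B ^ T.card * c T ^ 2 = α + B * β := by
      rw [Finset.sum_powerset_insert he, hβ, Finset.mul_sum]
      congr 1
      refine Finset.sum_congr rfl fun T hT => ?_
      rw [Finset.card_insert_of_notMem (hnot T hT)]; ring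
    have hmix : Ex p (fun x => g0 x ^ 2 * g1 x ^ 2) ≤ α * β := by
      have := Ex_cs h0 h1 (fun x => g0 x ^ 2) (fun x => g1 x ^ 2)
      simp only [← pow_mul] at this
      have n0 : 0 ≤ Ex p (fun x => g0 x ^ 4) := Ex_nonneg h0 h1 fun x => by positivity
      have n1 : 0 ≤ Ex p (fun x => g1 x ^ 4) := Ex_nonneg h0 h1 fun x => by positivity
      have h3 : Ex p (fun x => g0 x ^ 2 * g1 x ^ 2) ^ 2 ≤ (α * β) ^ 2 := by
        rw [mul_pow]; exact this.trans (mul_le_mul i0 i1 n1 (sq_nonneg _))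
      exact (abs_le_of_sq_le_sq' h3 (mul_nonneg hα0 hβ0)).2
    rw [hr, Ex_congr (fun x => by rw [hsplit x]), Ex_resample h0 h1 e]
    simp only [u0, u1, Function.update_self]
    calc _ ≤ Ex p (fun x => g0 x ^ 4 + 8 * (g0 x ^ 2 * g1 x ^ 2) + B ^ 2 * g1 x ^ 4) :=
          Ex_mono h0 h1 fun x => one_step h0 h1 _ _
      _ = Ex p (fun x => g0 x ^ 4) + 8 * Ex p (fun x => g0 x ^ 2 * g1 x ^ 2)
            + B ^ 2 * Ex p (fun x => g1 x ^ 4) := by
          rw [Ex_add, Ex_add, Ex_mul_left, Ex_mul_left]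
      _ ≤ α ^ 2 + 8 * (α * β) + B ^ 2 * β ^ 2 := by gcongr
      _ ≤ (α + B * β) ^ 2 := by nlinarith [mul_nonneg hα0 hβ0]

lemma bonami (h0 : 0 < p) (h1 : p < 1) (c : Finset ι → ℝ) (d : ℕ)
    (hc : ∀ T, d < T.card → c T = 0) :
    Ex p (fun x => (∑ T : Finset ι, c T * chi p T x) ^ 4)
      ≤ (4 / (p * (1 - p))) ^ d * (∑ T : Finset ι, c T ^ 2) ^ 2 := by
  have h := bonami_aux h0 h1 Finset.univ c
  rw [Finset.powerset_univ] at h
  have hB := four_le_B h0 h1
  have e : 4 / (p * (1 - p)) = (2 / sg p) ^ 2 := by rw [div_pow, sg_sq h0 h1]; norm_num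
  refine h.trans ?_
  rw [e, ← pow_mul, mul_comm 2 d, pow_mul, ← mul_pow, Finset.mul_sum]
  apply pow_le_pow_left₀ (Finset.sum_nonneg fun T _ => by positivity)
  refine Finset.sum_le_sum fun T _ => ?_
  by_cases hT : d < T.card
  · simp [hc T hT]
  · push Not at hT
    exact mul_le_mul_of_nonneg_right (pow_le_pow_right₀ (by linarith) hT) (sq_nonneg _)

lemma Ex_cs' (h0 : 0 < p) (h1 : p < 1) (R F G : (ι → Bool) → ℝ) (hF : ∀ x, 0 ≤ F x)
    (hG : ∀ x, 0 ≤ G x) (h : ∀ x, R x ^ 2 ≤ F x * G x) :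
    Ex p R ^ 2 ≤ Ex p F * Ex p G := by
  unfold Ex
  apply Finset.sum_sq_le_sum_mul_sum_of_sq_le_mul
  · intro x _; exact mul_nonneg (wt_pos h0 h1 x).le (hF x)
  · intro x _; exact mul_nonneg (wt_pos h0 h1 x).le (hG x)
  · intro x _
    have := mul_le_mul_of_nonneg_left (h x) (sq_nonneg (wt p x))
    nlinarith

/-- The KKL-type estimate for the low-degree part carried by one block. -/
lemma block_kkl (h0 : 0 < p) (h1 : p < 1) (F : (ι → Bool) → ℝ) (hF : ∀ x, F x = 0 ∨ F x = 1)
    (B : Finset ι) (d : ℕ) :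
    (∑ T : Finset ι, if T ≠ ∅ ∧ T ⊆ B ∧ T.card ≤ d then co p F T ^ 2 else 0) ^ 2
      ≤ 4 * (4 / (p * (1 - p))) ^ d
        * (∑ T : Finset ι, if Disjoint T B then 0 else co p F T ^ 2) ^ 3 := by
  set X := ∑ T : Finset ι, if T ≠ ∅ ∧ T ⊆ B ∧ T.card ≤ d then co p F T ^ 2 else 0 with hX
  set η := ∑ T : Finset ι, if Disjoint T B then 0 else co p F T ^ 2 with hη
  set A := (4 / (p * (1 - p))) ^ d with hA
  have hpp : 0 < p * (1 - p) := mul_pos h0 (by linarith)
  have hA0 : 0 ≤ A := by positivity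
  have hη0 : 0 ≤ η := Finset.sum_nonneg fun T _ => by split_ifs <;> positivity
  set c : Finset ι → ℝ := fun T => if T ≠ ∅ ∧ T ⊆ B ∧ T.card ≤ d then co p F T else 0 with hc
  set g : (ι → Bool) → ℝ := fun x => ∑ T : Finset ι, c T * chi p T x with hg
  set L : (ι → Bool) → ℝ := fun x => F x - avg p B F x with hL
  have coL : ∀ T, co p L T = if Disjoint T B then 0 else co p F T := by
    intro T
    rw [hL, co_sub, co_avg h0 h1]; split_ifs <;> simp
  have hc2 : ∑ T : Finset ι, c T ^ 2 = X :=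
    Finset.sum_congr rfl fun T _ => by simp only [hc]; split_ifs <;> simp
  have g4 : Ex p (fun x => g x ^ 4) ≤ A * X ^ 2 := by
    rw [← hc2]
    apply bonami h0 h1 c d
    intro T hT
    simp only [hc]; rw [if_neg]; rintro ⟨_, _, h⟩; omega
  have Lg : Ex p (fun x => L x * g x) = X := by
    rw [plancherel h0 h1]
    refine Finset.sum_congr rfl fun T _ => ?_
    rw [coL, hg, co_sum h0 h1]
    simp only [hc]
    by_cases h : T ≠ ∅ ∧ T ⊆ B ∧ T.card ≤ d
    · rw [if_pos h, if_pos h, if_neg]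
      · ring
      · intro hd
        exact h.1 (Finset.eq_empty_of_forall_notMem fun i hi =>
          Finset.disjoint_left.mp hd hi (h.2.1 hi))
    · rw [if_neg h, if_neg h]; ring
  have L2 : Ex p (fun x => L x ^ 2) = η := by
    rw [parseval h0 h1]
    refine Finset.sum_congr rfl fun T _ => ?_
    rw [coL]; split_ifs <;> simp
  have a0 : ∀ x, 0 ≤ avg p B F x := fun x =>
    Ex_nonneg h0 h1 fun y => by rcases hF (B.piecewise y x) with h | h <;> simp [h]
  have a1 : ∀ x, avg p B F x ≤ 1 := fun x => by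
    have : avg p B F x ≤ Ex p (fun _ : ι → Bool => (1 : ℝ)) :=
      Ex_mono h0 h1 fun y => by rcases hF (B.piecewise y x) with h | h <;> simp [h]
    rwa [Ex_const] at this
  have L1 : Ex p (fun x => |L x|) = 2 * η := by
    have e1 : ∀ x, |L x| = F x + avg p B F x - 2 * (F x * avg p B F x) := by
      intro x
      simp only [hL]
      rcases hF x with h | h
      · rw [h, abs_of_nonpos (by linarith [a0 x])]; ring
      · rw [h, abs_of_nonneg (by linarith [a1 x])]; ring
    rw [Ex_congr e1, Ex_sub, Ex_add, Ex_mul_left, Ex_avg h0 h1, plancherel h0 h1]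
    have e2 : Ex p F = ∑ T : Finset ι, co p F T ^ 2 := by
      rw [← parseval h0 h1]
      exact Ex_congr fun x => by rcases hF x with h | h <;> simp [h]
    rw [e2, hη, Finset.mul_sum, Finset.mul_sum, ← Finset.sum_add_distrib,
      ← Finset.sum_sub_distrib]
    refine Finset.sum_congr rfl fun T _ => ?_
    rw [co_avg h0 h1]; split_ifs <;> ring
  have c1 : X ^ 2 ≤ (2 * η) * Ex p (fun x => |L x| * g x ^ 2) := by
    rw [← Lg, ← L1]
    apply Ex_cs' h0 h1
    · intro x; positivity
    · intro x; positivity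
    · intro x; apply le_of_eq; rw [← mul_assoc, ← sq, sq_abs]; ring
  have c2 : Ex p (fun x => |L x| * g x ^ 2) ^ 2 ≤ η * (A * X ^ 2) := by
    have := Ex_cs h0 h1 (fun x => |L x|) (fun x => g x ^ 2)
    simp only [← pow_mul, sq_abs] at this
    rw [L2] at this
    exact this.trans (mul_le_mul_of_nonneg_left g4 hη0)
  set Y := Ex p (fun x => |L x| * g x ^ 2)
  by_cases hX0 : X = 0
  · rw [hX0]
    have : 0 ≤ 4 * A * η ^ 3 := by positivity
    simpa using this
  · have hXp : 0 < X ^ 2 := by positivity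
    have c3 : (X ^ 2) ^ 2 ≤ (2 * η * Y) ^ 2 := pow_le_pow_left₀ hXp.le c1 2
    have c4 : X ^ 2 * X ^ 2 ≤ (4 * A * η ^ 3) * X ^ 2 := by
      have : (2 * η * Y) ^ 2 = 4 * η ^ 2 * Y ^ 2 := by ring
      have h5 : 4 * η ^ 2 * Y ^ 2 ≤ 4 * η ^ 2 * (η * (A * X ^ 2)) :=
        mul_le_mul_of_nonneg_left c2 (by positivity)
      nlinarith
    exact le_of_mul_le_mul_right c4 hXp

end Vale.Agent.P063
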