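import Mathlib

/-! Biased Fourier analysis on the discrete cube. -/

set_option linter.unusedSectionVars false

namespace Vale.Agent.P063

open Finset

variable {ι : Type} [Fintype ι] [DecidableEq ι]

/-- one-coordinate weight -/
def om (p : ℝ) (b : Bool) : ℝ := if b = true then p else 1 - p

/-- product weight -/
def wt (p : ℝ) (x : ι → Bool) : ℝ := ∏ i, om p (x i)

/-- expectation -/
def Ex (p : ℝ) (F : (ι → Bool) → ℝ) : ℝ := ∑ x, wt p x * F x

noncomputable def sg (p : ℝ) : ℝ := Real.sqrt (p * (1 - p))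

noncomputable def ch (p : ℝ) (b : Bool) : ℝ := ((if b = true then 1 else 0) - p) / sg p

noncomputable def chi (p : ℝ) (S : Finset ι) (x : ι → Bool) : ℝ := ∏ i ∈ S, ch p (x i)

noncomputable def co (p : ℝ) (F : (ι → Bool) → ℝ) (S : Finset ι) : ℝ :=
  Ex p (fun x => F x * chi p S x)

section basic
variable {p : ℝ}

lemma sg_pos (h0 : 0 < p) (h1 : p < 1) : 0 < sg p :=
  Real.sqrt_pos.mpr (mul_pos h0 (by linarith))

lemma sg_sq (h0 : 0 < p) (h1 : p < 1) : sg p ^ 2 = p * (1 - p) :=
  Real.sq_sqrt (mul_pos h0 (by linarith)).le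

lemma om_pos (h0 : 0 < p) (h1 : p < 1) (b : Bool) : 0 < om p b := by
  cases b <;> simp [om] <;> linarith

lemma wt_pos (h0 : 0 < p) (h1 : p < 1) (x : ι → Bool) : 0 < wt p x :=
  Finset.prod_pos fun _ _ => om_pos h0 h1 _

lemma Ex_prod (g : ι → Bool → ℝ) :
    Ex p (fun x => ∏ i, g i (x i)) = ∏ i, (p * g i true + (1 - p) * g i false) := by
  unfold Ex wt
  have : ∀ i, p * g i true + (1 - p) * g i false = ∑ b : Bool, om p b * g i b := by
    intro i; simp [om]
  simp_rw [this]
  rw [Finset.prod_univ_sum, Fintype.piFinset_univ]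
  simp [Finset.prod_mul_distrib]

lemma Ex_const (c : ℝ) : Ex p (fun _ : ι → Bool => c) = c := by
  have := Ex_prod (p := p) (ι := ι) (fun _ _ => 1)
  simp only [Finset.prod_const_one, mul_one, add_sub_cancel] at this
  unfold Ex at *
  simp only [mul_one] at this
  rw [← Finset.sum_mul, this, one_mul]

lemma Ex_add (F G : (ι → Bool) → ℝ) : Ex p (fun x => F x + G x) = Ex p F + Ex p G := by
  unfold Ex; simp [mul_add, Finset.sum_add_distrib]

lemma Ex_sub (F G : (ι → Bool) → ℝ) : Ex p (fun x => F x - G x) = Ex p F - Ex p G := by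
  unfold Ex; simp [mul_sub, Finset.sum_sub_distrib]

lemma Ex_mul_left (c : ℝ) (F : (ι → Bool) → ℝ) : Ex p (fun x => c * F x) = c * Ex p F := by
  unfold Ex; rw [Finset.mul_sum]; exact Finset.sum_congr rfl fun x _ => by ring

lemma Ex_mul_right (c : ℝ) (F : (ι → Bool) → ℝ) : Ex p (fun x => F x * c) = Ex p F * c := by
  unfold Ex; rw [Finset.sum_mul]; exact Finset.sum_congr rfl fun x _ => by ring

lemma Ex_sum {α : Type} (s : Finset α) (F : α → (ι → Bool) → ℝ) :
    Ex p (fun x => ∑ a ∈ s, F a x) = ∑ a ∈ s, Ex p (F a) := by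
  unfold Ex; simp_rw [Finset.mul_sum]; exact Finset.sum_comm

lemma Ex_mono (h0 : 0 < p) (h1 : p < 1) {F G : (ι → Bool) → ℝ} (h : ∀ x, F x ≤ G x) :
    Ex p F ≤ Ex p G :=
  Finset.sum_le_sum fun x _ => mul_le_mul_of_nonneg_left (h x) (wt_pos h0 h1 x).le

lemma Ex_nonneg (h0 : 0 < p) (h1 : p < 1) {F : (ι → Bool) → ℝ} (h : ∀ x, 0 ≤ F x) :
    0 ≤ Ex p F :=
  Finset.sum_nonneg fun x _ => mul_nonneg (wt_pos h0 h1 x).le (h x)

lemma Ex_congr {F G : (ι → Bool) → ℝ} (h : ∀ x, F x = G x) : Ex p F = Ex p G := by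
  have : F = G := funext h
  rw [this]

/-- Cauchy-Schwarz -/
lemma Ex_cs (h0 : 0 < p) (h1 : p < 1) (F G : (ι → Bool) → ℝ) :
    Ex p (fun x => F x * G x) ^ 2 ≤ Ex p (fun x => F x ^ 2) * Ex p (fun x => G x ^ 2) := by
  unfold Ex
  apply Finset.sum_sq_le_sum_mul_sum_of_sq_le_mul
  · intro x _; exact mul_nonneg (wt_pos h0 h1 x).le (sq_nonneg _)
  · intro x _; exact mul_nonneg (wt_pos h0 h1 x).le (sq_nonneg _)
  · intro x _; apply le_of_eq; ring

lemma ch_mean : p * ch p true + (1 - p) * ch p false = 0 := by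
  simp [ch]; ring

lemma ch_sq (h0 : 0 < p) (h1 : p < 1) : p * ch p true ^ 2 + (1 - p) * ch p false ^ 2 = 1 := by
  have hs := sg_pos h0 h1
  have h2 := sg_sq h0 h1
  simp only [ch, div_pow, h2]
  have : p * (1 - p) ≠ 0 := (mul_pos h0 (by linarith)).ne'
  have h3 : (1 - p) ≠ 0 := by linarith
  field_simp
  simp only [if_true, Bool.false_eq_true, if_false]
  ring

lemma chi_eq_prod (S : Finset ι) (x : ι → Bool) :
    chi p S x = ∏ i, (if i ∈ S then ch p (x i) else 1) := by
  unfold chi; rw [Finset.prod_ite_mem]; simp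

lemma Ex_chi_mul (h0 : 0 < p) (h1 : p < 1) (S T : Finset ι) :
    Ex p (fun x => chi p S x * chi p T x) = if S = T then 1 else 0 := by
  simp_rw [chi_eq_prod, ← Finset.prod_mul_distrib]
  rw [Ex_prod (fun i b => (if i ∈ S then ch p b else 1) * (if i ∈ T then ch p b else 1))]
  split_ifs with h
  · subst h
    apply Finset.prod_eq_one
    intro i _
    by_cases hi : i ∈ S
    · simp only [hi, if_true]; have := ch_sq h0 h1; nlinarith
    · simp [hi]
  · have : ∃ i, ¬ (i ∈ S ↔ i ∈ T) := by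
      by_contra hc
      push Not at hc
      exact h (Finset.ext hc)
    obtain ⟨i, hi⟩ := this
    apply Finset.prod_eq_zero (Finset.mem_univ i)
    have := ch_mean (p := p)
    by_cases hS : i ∈ S <;> by_cases hT : i ∈ T <;> simp_all

lemma chi_empty (x : ι → Bool) : chi p ∅ x = 1 := by simp [chi]

lemma Ex_chi (h0 : 0 < p) (h1 : p < 1) (S : Finset ι) :
    Ex p (chi p S) = if S = ∅ then 1 else 0 := by
  rw [← Ex_chi_mul h0 h1 S ∅]; simp [chi_empty]

lemma one_add_ch_mul (h0 : 0 < p) (h1 : p < 1) (a b : Bool) :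
    om p b * (1 + ch p a * ch p b) = if a = b then 1 else 0 := by
  have hs := sg_pos h0 h1
  have h2 := sg_sq h0 h1
  have h3 : (1 - p) ≠ 0 := by linarith
  have h4 : sg p * sg p = p * (1 - p) := by rw [← h2]; ring
  have h5 : p ≠ 0 := h0.ne'
  cases a <;> cases b <;> simp only [om, ch, div_mul_div_comm, h4] <;>
    simp only [if_true, Bool.false_eq_true, if_false, Bool.true_eq_false] <;> field_simp <;> ring

/-- Fourier expansion -/
lemma expand (h0 : 0 < p) (h1 : p < 1) (F : (ι → Bool) → ℝ) (x : ι → Bool) :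
    F x = ∑ S : Finset ι, co p F S * chi p S x := by
  have key : ∀ y : ι → Bool, wt p y * ∑ S : Finset ι, chi p S y * chi p S x
      = if y = x then 1 else 0 := by
    intro y
    have e1 : ∑ S : Finset ι, chi p S y * chi p S x = ∏ i, (1 + ch p (x i) * ch p (y i)) := by
      rw [Finset.prod_one_add, Finset.powerset_univ]
      refine Finset.sum_congr rfl fun S _ => ?_
      unfold chi; rw [← Finset.prod_mul_distrib]; exact Finset.prod_congr rfl fun i _ => by ring
    rw [e1]; unfold wt; rw [← Finset.prod_mul_distrib]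
    simp_rw [one_add_ch_mul h0 h1]
    split_ifs with h
    · subst h; simp
    · obtain ⟨i, hi⟩ := Function.ne_iff.mp h
      apply Finset.prod_eq_zero (Finset.mem_univ i)
      simp [Ne.symm hi]
  calc F x = ∑ y, F y * (if y = x then 1 else 0) := by simp
    _ = ∑ y, F y * (wt p y * ∑ S : Finset ι, chi p S y * chi p S x) := by simp_rw [key]
    _ = ∑ S : Finset ι, co p F S * chi p S x := by
      unfold co Ex
      simp_rw [Finset.mul_sum, Finset.sum_mul]
      rw [Finset.sum_comm]
      exact Finset.sum_congr rfl fun S _ => Finset.sum_congr rfl fun y _ => by ring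

lemma plancherel (h0 : 0 < p) (h1 : p < 1) (F G : (ι → Bool) → ℝ) :
    Ex p (fun x => F x * G x) = ∑ S : Finset ι, co p F S * co p G S := by
  have : ∀ x, F x * G x = ∑ S : Finset ι, co p G S * (F x * chi p S x) := by
    intro x
    conv_lhs => rw [expand h0 h1 G x]
    rw [Finset.mul_sum]; exact Finset.sum_congr rfl fun S _ => by ring
  rw [Ex_congr this, Ex_sum]
  refine Finset.sum_congr rfl fun S _ => ?_
  rw [Ex_mul_left]; unfold co; ring

lemma parseval (h0 : 0 < p) (h1 : p < 1) (F : (ι → Bool) → ℝ) :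
    Ex p (fun x => F x ^ 2) = ∑ S : Finset ι, co p F S ^ 2 := by
  simp_rw [sq]; exact plancherel h0 h1 F F

lemma co_sum (h0 : 0 < p) (h1 : p < 1) (c : Finset ι → ℝ) (T : Finset ι) :
    co p (fun x => ∑ S : Finset ι, c S * chi p S x) T = c T := by
  unfold co
  simp_rw [Finset.sum_mul, mul_assoc]
  rw [Ex_sum]
  simp_rw [Ex_mul_left, Ex_chi_mul h0 h1]
  simp

lemma co_empty (F : (ι → Bool) → ℝ) : co p F ∅ = Ex p F := by
  unfold co; simp [chi_empty]

lemma co_sub (F G : (ι → Bool) → ℝ) (S : Finset ι) :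
    co p (fun x => F x - G x) S = co p F S - co p G S := by
  unfold co; rw [← Ex_sub]; exact Ex_congr fun x => by ring

lemma chi_piecewise (A S : Finset ι) (h y : ι → Bool) :
    chi p S (A.piecewise h y) = chi p (S ∩ A) h * chi p (S \ A) y := by
  unfold chi
  rw [← Finset.prod_inter_mul_prod_sdiff S A]
  congr 1
  · exact Finset.prod_congr rfl fun i hi => by
      rw [Finset.piecewise_eq_of_mem _ _ _ (Finset.mem_inter.mp hi).2]
  · exact Finset.prod_congr rfl fun i hi => by
      rw [Finset.piecewise_eq_of_notMem _ _ _ (Finset.mem_sdiff.mp hi).2]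

end basic

end Vale.Agent.P063
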